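import Crest.Agent.X212.Dic6.Fil

/-!
# Row 212, level zero (helper6): the capped surface, and the certificate from an essential map
-/

set_option autoImplicit false
set_option linter.unusedSectionVars false

open Set Filter Topology Function Metric
open scoped ContDiff Manifold
open Crest.GeometryTopology.DehnSurgery Crest.Agent.X212.Glue52 Crest.Agent.X212.Ext52
open Crest.Agent.X212.Sm10 Crest.Agent.X212.Hel40 Crest.Agent.X212.Cab39 Crest.Agent.X212.St29
open Crest.Agent.X212.Sep15 (CM Box)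

noncomputable section

namespace Crest.Agent.X212.Dic6

/-- the box of an angle on the zero filling -/
structure Bx (t : Tube) (r : ℝ) {R : CM 2} (b : R × ℝ → Yz t) (Φ : Yz t → Circle) (u : Circle) :
    Prop where
  pos : 0 < r
  box : Box b
  cont : Continuous Φ
  rg : range b = {y | Φ y ≠ 1}
  ang : ∀ p, Φ (b p) = cay p.2
  it : ∀ a : Circle × ℂ, ‖a.2‖ < r → (Φ (t.it σ0 a) = -1 ↔ a.1 = u)

/-- the uncapped surface -/
def SF (t : Tube) (r : ℝ) (Φ : Yz t → Circle) : Set E3 := {p | p ∈ Out t (r / 2) ∧ Φ (iz t p) = -1}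

variable {t : Tube} {r : ℝ} {R : CM 2} [Nonempty R] {b : R × ℝ → Yz t} {Φ : Yz t → Circle}
  {u : Circle}

/-- projection to the base -/
def pr (b : R × ℝ → Yz t) (y : Yz t) : R := (invFun b y).1

/-- the capping disc -/
def ep (b : R × ℝ → Yz t) (u : Circle) (ζ : ℂ) : R := pr b (t.it σ0 (u, ζ))

namespace Bx
variable (h : Bx t r b Φ u)
include h

theorem r2 : 0 ≤ r / 2 := (half_pos h.pos).le

theorem rb {y : Yz t} (hy : Φ y = -1) : y ∈ range b := by
  rw [h.rg, mem_ofPred_eq, hy]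
  exact fun e => by have := congrArg (fun z : Circle => (z : ℂ).re) e; norm_num at this

theorem b0 (x : R) : Φ (b (x, 0)) = -1 := (h.ang _).trans (Circle.ext (cay_eq_neg.2 rfl))

theorem i0 {ζ : ℂ} (a : ‖ζ‖ < r) : Φ (t.it σ0 (u, ζ)) = -1 := (h.it _ a).2 rfl

theorem p1 (p : R × ℝ) : pr b (b p) = p.1 := congrArg Prod.fst (leftInverse_invFun h.box.inj p)

theorem p2 {y : Yz t} (hy : Φ y = -1) : b (pr b y, 0) = y := by
  obtain ⟨⟨x, s⟩, rfl⟩ := h.rb hy
  rw [h.p1, show s = 0 from cay_eq_neg.1 (congrArg Subtype.val ((h.ang (x, s)).symm.trans hy))]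

theorem p3 {y : Yz t} (hy : Φ y = -1) : ContMDiffAt (𝓡 3) (𝓡 2) ∞ (pr b) y := by
  obtain ⟨p, rfl⟩ := h.rb hy
  exact contMDiffAt_of_comp (h.box.loc p) (contMDiffAt_fst.congr_of_eventuallyEq (.of_forall h.p1))

theorem bs : ContMDiff (𝓡 2) (𝓡 3) ∞ fun x => b (x, 0) :=
  h.box.contMDiff.comp (contMDiff_id.prodMk contMDiff_const)

theorem e1 {ζ : ℂ} (a : ‖ζ‖ < r) : b (ep b u ζ, 0) = t.it σ0 (u, ζ) := h.p2 (h.i0 a)

theorem e2 {x : R} {a : Circle × ℂ} (ha : ‖a.2‖ < r) (e : t.it σ0 a = b (x, 0)) :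
    a.1 = u ∧ ep b u a.2 = x := by
  have e1 := (h.it a ha).1 (e ▸ h.b0 x)
  exact ⟨e1, by rw [ep, ← e1, e, h.p1]⟩

theorem es {ζ : ℂ} (a : ‖ζ‖ < r) : ContMDiffAt 𝓘(ℝ, ℂ) (𝓡 2) ∞ (ep b u) ζ :=
  (h.p3 (h.i0 a)).comp ζ (((t.two σ0).ld_inr.contMDiff _).comp ζ
    (contMDiffAt_const.prodMk contMDiffAt_id))

theorem ec {ρ : ℝ} (hρ : ρ < r) : ContinuousOn (ep b u) (closedBall 0 ρ) := fun _ a =>
  (h.es ((mem_closedBall_zero_iff.1 a).trans_lt hρ)).continuousAt.continuousWithinAt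

theorem ei : InjOn (ep b u) (ball 0 r) := fun ζ a ξ c e =>
  congrArg Prod.snd ((t.two σ0).inr_injective (a₁ := (u, ζ)) (a₂ := (u, ξ))
    ((h.e1 (mem_ball_zero_iff.1 a)).symm.trans (e ▸ h.e1 (mem_ball_zero_iff.1 c))))

theorem eo {ρ : ℝ} (hρ : ρ ≤ r) : IsOpen (ep b u '' ball 0 ρ) := by
  convert ((t.two σ0).isOpenEmbedding_inr.isOpenMap _ (isOpen_lt continuous_snd.norm
    continuous_const : IsOpen {a : Circle × ℂ | ‖a.2‖ < ρ})).preimage h.bs.continuous using 1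
  ext x
  exact ⟨fun ⟨ζ, a, e⟩ => ⟨(u, ζ), mem_ball_zero_iff.1 a,
    e ▸ (h.e1 ((mem_ball_zero_iff.1 a).trans_le hρ)).symm⟩,
    fun ⟨a, c, e⟩ => ⟨a.2, mem_ball_zero_iff.2 c, (h.e2 (c.trans_le hρ) e).2⟩⟩

theorem jc : ContinuousOn (pr b ∘ iz t) (SF t r Φ) := fun _ hp => ((h.p3 hp.2).continuousAt.comp
  (ld_iz (sg_mem h.r2 hp.1)).contMDiffAt.continuousAt).continuousWithinAt

theorem cov (x : R) : (∃ p ∈ SF t r Φ, iz t p = b (x, 0)) ∨ x ∈ ep b u '' closedBall 0 (r / 2) := by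
  rcases cover h.r2 (b (x, 0)) with ⟨p, hp, e⟩ | ⟨a, ha, e⟩
  · exact .inl ⟨p, ⟨hp, e ▸ h.b0 x⟩, e⟩
  · exact .inr ⟨a.2, mem_closedBall_zero_iff.2 ha, (h.e2 (by linarith [h.pos]) e).2⟩

theorem ann (y : Circle) {s : ℝ} (s1 : r / 2 < s) (s2 : s < r) :
    tb t (y, s * u) ∈ SF t r Φ ∧ iz t (tb t (y, s * u)) = t.it σ0 (u, s * y) := by
  have s0 : 0 < s := h.r2.trans_lt s1
  have n : ∀ y : Circle, ‖(s : ℂ) * y‖ = s := fun y => by
    rw [norm_mul, Circle.norm_coe, mul_one, Complex.norm_of_nonneg s0.le]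
  have e := iz_tb (t := t) (a := (u, s * y)) (norm_pos_iff.1 (by rwa [n]))
  rw [mon0, dir_mul s0, n] at e
  exact ⟨⟨(tb_mem (norm_pos_iff.1 (by rwa [n]))).2 (by rwa [n]), e ▸ h.i0 (by rwa [n])⟩, e⟩

theorem conn (hF : IsPreconnected (SF t r Φ)) : IsPreconnected (univ : Set R) := by
  have r0 := h.pos
  obtain ⟨a1, a2⟩ := h.ann 1 (s := 3 * r / 4) (by linarith) (by linarith)
  have k := (convex_closedBall 0 (3 * r / 4)).isPreconnected.image _ (h.ec (by linarith))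
  refine ((hF.image _ h.jc).union _ (mem_image_of_mem _ a1) (by
    rw [comp_apply, a2]; refine mem_image_of_mem (ep b u) ?_; simp [abs_of_pos r0]) k).subset_closure
    (subset_univ _) fun x _ => subset_closure ?_
  rcases h.cov x with ⟨p, hp, e⟩ | e
  · exact .inl ⟨p, hp, (congrArg (pr b) e).trans (h.p1 _)⟩
  · exact .inr (image_mono (closedBall_subset_closedBall (by linarith)) e)

/-- an essential map which is trivial on the capping disc -/
theorem norm {w₀ : R → Circle} (w1 : Continuous w₀) (w2 : ¬ Lifts w₀ univ) : ∃ w : R → Circle,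
    Continuous w ∧ ¬ Lifts w univ ∧ ∀ ζ : ℂ, ‖ζ‖ ≤ 3 * r / 4 → w (ep b u ζ) = 1 := by
  have r0 := h.pos
  have cv := convex_closedBall (0 : ℂ) (3 * r / 4)
  have := cv.contractibleSpace ⟨0, mem_closedBall_self (by positivity)⟩
  have := cv.locallyPathConnectedSpace
  have c1 : Continuous fun z : closedBall (0 : ℂ) (3 * r / 4) => ep b u z :=
    continuousOn_iff_continuous_domRestrict.1 (h.ec (by linarith))
  obtain ⟨s, hs⟩ := Circle.exp_surjective (w₀ (ep b u 0))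
  obtain ⟨l, ⟨-, l1⟩, -⟩ := Circle.isCoveringMap_exp.existsUnique_continuousMap_lifts
    ⟨_, w1.comp c1⟩ ⟨0, mem_closedBall_self (by positivity)⟩ s hs
  obtain ⟨g, g1⟩ := l.exists_extension' (c1.isClosedEmbedding fun a c e => Subtype.ext (h.ei
    (closedBall_subset_ball (by linarith) a.2) (closedBall_subset_ball (by linarith) c.2) e))
  refine ⟨fun x => w₀ x * Circle.exp (-g x), w1.mul (by fun_prop), fun ⟨m, m1, m2⟩ =>
    w2 ⟨fun x => m x + g x, m1.add g.continuous.continuousOn, fun x a => ?_⟩, fun ζ hζ => ?_⟩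
  · rw [Circle.exp_add, ← m2 x a]
    simp only [Circle.exp_neg, inv_mul_cancel_right]
  · have a := congrFun g1 ⟨ζ, mem_closedBall_zero_iff.2 hζ⟩
    have c := congrFun l1 ⟨ζ, mem_closedBall_zero_iff.2 hζ⟩
    simp only [comp_apply, ContinuousMap.coe_mk] at a c ⊢
    rw [a, ← c, Circle.exp_neg, mul_inv_cancel]

/-- a lift on the uncapped surface extends over the disc -/
theorem lift {w : R → Circle} (w4 : ∀ ζ : ℂ, ‖ζ‖ ≤ 3 * r / 4 → w (ep b u ζ) = 1)
    (hl : Lifts (w ∘ pr b ∘ iz t) (SF t r Φ)) : Lifts w univ := by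
  classical
  obtain ⟨m, m1, m2⟩ := hl
  have r0 := h.pos
  have r2 := h.r2
  have T1 : ∀ q ∈ (univ : Set Circle) ×ˢ Ioo (r / 2) (3 * r / 4),
      tb t (q.1, (q.2 : ℝ) * u) ∈ SF t r Φ := fun q a => (h.ann q.1 a.2.1 (by linarith [a.2.2])).1
  have T2 : ∀ q ∈ (univ : Set Circle) ×ˢ Ioo (r / 2) (3 * r / 4),
      Circle.exp (m (tb t (q.1, (q.2 : ℝ) * u))) = 1 := fun q a => by
    rw [← m2 _ (T1 q a), comp_apply, comp_apply, (h.ann q.1 a.2.1 (by linarith [a.2.2])).2]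
    exact w4 _ (by
      rw [norm_mul, Circle.norm_coe, mul_one, Complex.norm_of_nonneg (r2.trans a.2.1.le)]
      exact a.2.2.le)
  have q0 : ((1 : Circle), 5 * r / 8) ∈ (univ : Set Circle) ×ˢ Ioo (r / 2) (3 * r / 4) :=
    ⟨trivial, by linarith, by linarith⟩
  have T3 := fun q a => Circle.isCoveringMap_exp.constOn_of_comp (isPreconnected_univ.prod
    isPreconnected_Ioo) (m1.comp (fun q a => (ContinuousAt.comp (g := tb t) (contMDiffAt_tb (by
      simpa using (show 0 < q.2 by linarith [a.2.1]).ne')).continuousAt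
      (by fun_prop)).continuousWithinAt) T1) (fun q a q' c => (T2 q a).trans (T2 q' c).symm)
      (a := q) a q0
  let p₂ : R → E3 := fun x => invFunOn (iz t) (Out t (r / 2)) (b (x, 0))
  have p1 : ∀ p ∈ Out t (r / 2), invFunOn (iz t) (Out t (r / 2)) (iz t p) = p := fun p hp =>
    InjOn.leftInvOn_invFunOn (fun p a q c => iz_inj (sg_mem r2 a) (sg_mem r2 c)) hp
  let n : R → ℝ := fun x => if x ∈ ep b u '' ball 0 (3 * r / 4) then
    m (tb t (1, (5 * r / 8 : ℝ) * u)) else m (p₂ x)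
  have n1 : ∀ x, ∀ p ∈ SF t r Φ, iz t p = b (x, 0) → n x = m (p₂ x) ∧ p₂ x = p := fun x p hp e => by
    have e1 : p₂ x = p := by simp only [p₂]; rw [← e, p1 p hp.1]
    refine ⟨?_, e1⟩
    simp only [n]
    split_ifs with a
    · obtain ⟨ζ, a, rfl⟩ := a
      rw [mem_ball_zero_iff] at a
      obtain ⟨c, d⟩ := iz_eq_it (sg_mem r2 hp.1) (e.trans (h.e1 (by linarith)))
      have := (tb_mem (mon_ne _ _ _ _ c)).1 (d ▸ hp.1)
      rw [norm_mon] at this
      rw [e1, ← d, mon0]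
      exact (T3 (dir ζ, ‖ζ‖) ⟨trivial, this, a⟩).symm
    · rfl
  refine ⟨n, (continuous_iff_continuousAt.2 fun x => ?_).continuousOn, fun x _ => ?_⟩
  · by_cases a : x ∈ ep b u '' ball 0 (3 * r / 4)
    · exact continuousAt_const.congr (mem_of_superset ((h.eo (by linarith)).mem_nhds a)
        fun y hy => (if_pos hy).symm)
    have c := ((isCompact_closedBall 0 (r / 2)).image_of_continuousOn
      (h.ec (by linarith))).isClosed.isOpen_compl.mem_nhds
        (mt (image_mono (closedBall_subset_ball (by linarith)) ·) a)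
    obtain ⟨p, hp, e⟩ := (h.cov x).resolve_right (mem_of_mem_nhds c)
    have d : ContinuousAt p₂ x := ContinuousAt.comp (g := invFunOn (iz t) (Out t (r / 2))) (by
      rw [← e]
      exact (contMDiffAt_of_comp (g := invFunOn (iz t) (Out t (r / 2))) (ld_iz (sg_mem r2 hp.1))
        (contMDiffAt_id.congr_of_eventuallyEq
          (mem_of_superset ((isOpen_Out _ _).mem_nhds hp.1) p1))).continuousAt)
      h.bs.continuous.continuousAt
    refine ((m1 _ ((n1 x p hp e).2 ▸ hp)).tendsto.comp (tendsto_nhdsWithin_iff.2 ⟨d, ?_⟩)).congr'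
      ?_ |>.trans_eq (by rw [(n1 x p hp e).1])
    · filter_upwards [c] with y hy
      obtain ⟨p, hp, e⟩ := (h.cov y).resolve_right hy
      exact (n1 y p hp e).2 ▸ hp
    · filter_upwards [c] with y hy
      obtain ⟨p, hp, e⟩ := (h.cov y).resolve_right hy
      exact (n1 y p hp e).1.symm
  · rcases h.cov x with ⟨p, hp, e⟩ | ⟨ζ, a, rfl⟩
    · rw [(n1 x p hp e).1, (n1 x p hp e).2, ← m2 p hp, comp_apply, comp_apply, e, h.p1]
    · rw [mem_closedBall_zero_iff] at a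
      rw [w4 ζ (by linarith), show n _ = _ from if_pos ⟨ζ, mem_ball_zero_iff.2 (by linarith), rfl⟩,
        T2 _ q0]

/-- the certificate -/
theorem gc {w₀ : R → Circle} (w1 : Continuous w₀) (w2 : ¬ Lifts w₀ univ) :
    ∃ w L, Gc (SF t r Φ) w L := by
  obtain ⟨w, w3, w5, w4⟩ := h.norm w1 w2
  have r0 := h.pos
  have r2 := h.r2
  have K : IsCompact (sg t ⁻¹' (otube t (3 * r / 4))ᶜ) :=
    ((isOpenEmbedding_sg t).isInducing.isCompact_preimage_iff (by
      rw [range_sg]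
      rintro _ a rfl
      exact a (τ_mem_otube.2 (by simpa using r0)))).2 (isOpen_otube _ _).isClosed_compl.isCompact
  have K1 : sg t ⁻¹' (otube t (3 * r / 4))ᶜ ⊆ Out t (r / 2) := fun p a ⟨z, c, e⟩ =>
    a ⟨z, (show ‖z.2‖ ≤ r / 2 from c).trans_lt (by linarith), e⟩
  refine ⟨w ∘ pr b ∘ iz t, sg t ⁻¹' (otube t (3 * r / 4))ᶜ ∩ (Φ ∘ iz t) ⁻¹' {-1},
    K.of_isClosed_subset (ContinuousOn.preimage_isClosed_of_isClosed (fun p hp =>
      (h.cont.continuousAt.comp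
        (ld_iz (sg_mem r2 (K1 hp))).contMDiffAt.continuousAt).continuousWithinAt)
      K.isClosed isClosed_singleton) inter_subset_left, fun p hp => ⟨K1 hp.1, hp.2⟩,
    w3.comp_continuousOn h.jc, fun p hp hn => ?_, fun a => w5 (h.lift w4 a)⟩
  obtain ⟨z, z1, z2⟩ : sg t p ∈ otube t (3 * r / 4) := not_not.1 fun a => hn ⟨a, hp.2⟩
  have z0 : z.2 ≠ 0 := t.τ_mem_Ext.1 (z2 ▸ sg_mem r2 hp.1)
  have e := iz_tb (t := t) (mon_ne 1 0 0 1 z0)
  rw [mon_mon _ _ _ _ _ _ _ _ z0] at e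
  norm_num [mon_id, tb_of_sg z2.symm] at e
  have n : ‖(mon 1 0 0 1 z).2‖ < 3 * r / 4 := by rwa [norm_mon]
  rw [comp_apply, comp_apply, ← (h.e2 (by linarith) (e.symm.trans (h.p2 hp.2).symm)).2]
  exact w4 _ n.le

end Bx

end Crest.Agent.X212.Dic6
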