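import Crest.Agent.X212.St29.Defs
import Crest.Agent.X212.Hel40.Bas
import Crest.Agent.X212.Orx52.Prod

/-!
# Row 212, level zero (helper6): the Seifert surface capped off in the zero filling
-/

set_option autoImplicit false
set_option linter.unusedSectionVars false

open Set Filter Topology Function
open scoped ContDiff Manifold
open Crest.GeometryTopology.DehnSurgery Crest.Agent.X212.Glue52 Crest.Agent.X212.Ext52
open Crest.Agent.X212.Sm10 Crest.Agent.X212.Hel40 Crest.Agent.X212.Cab39 Crest.Agent.X212.St29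
open Crest.Agent.X212.Sep15 (CM Box)
open Crest.Agent.X212.Bb31 (Fm)
open Crest.Agent.X212.Int54 (Ori)
open Crest.Agent.X212.Flo26 (SmV)
open Crest.Agent.X212.Dr59 (mf)

noncomputable section

namespace Crest.Agent.X212.Dic6

section
variable {E H M E' H' N : Type*} [NormedAddCommGroup E] [NormedSpace ℝ E] [TopologicalSpace H]
  {I : ModelWithCorners ℝ E H} [TopologicalSpace M] [ChartedSpace H M] [IsManifold I ∞ M]
  [NormedAddCommGroup E'] [NormedSpace ℝ E'] [TopologicalSpace H']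
  {J : ModelWithCorners ℝ E' H'} [TopologicalSpace N] [ChartedSpace H' N] [IsManifold J ∞ N]

/-- local push-forward of a field -/
theorem loc_push {e : M → N} {x : M} (he : IsLocalDiffeomorphAt I J ∞ e x) {s : Set M}
    (hs : IsOpen s) (hx : x ∈ s) {W : (x : M) → TangentSpace I x}
    (hW : ContMDiffOn I I.tangent ∞ (fun x => (⟨x, W x⟩ : TangentBundle I M)) s) :
    ∃ O ∈ 𝓝 (e x), ∃ V : (y : N) → TangentSpace J y,
      ContMDiffOn J J.tangent ∞ (fun y => (⟨y, V y⟩ : TangentBundle J N)) O ∧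
      ∀ y ∈ O, ∃ w ∈ s, e w = y ∧ (V y : E') = mfderiv I J e w (W w) := by
  obtain ⟨Φ, hz, hΦ⟩ := he
  have hs' : ContMDiffOn I J ∞ e Φ.source := Φ.contMDiffOn_toFun.congr hΦ
  have ht : e x ∈ Φ.target := by rw [hΦ hz]; exact Φ.map_source hz
  have h4 : ∀ y ∈ Φ.target, e (Φ.invFun y) = y := fun y hy =>
    (hΦ (Φ.map_target hy)).trans (Φ.right_inv hy)
  refine ⟨Φ.target ∩ Φ.invFun ⁻¹' s, (Φ.contMDiffOn_invFun.continuousOn.isOpen_inter_preimage
    Φ.open_target hs).mem_nhds ⟨ht, ?_⟩, fun y => (mfderiv I J e (Φ.invFun y) (W (Φ.invFun y)) : E'),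
    ?_, fun y hy => ⟨_, hy.2, h4 y hy.1, rfl⟩⟩
  · have : Φ.invFun (e x) = x := by rw [hΦ hz]; exact Φ.left_inv hz
    rwa [mem_preimage, this]
  · have h1 := hs'.contMDiffOn_tangentMapWithin (m := ∞) (by simp) Φ.open_source.uniqueMDiffOn
    have h2 := (h1.comp (s := Φ.source ∩ s) (hW.mono inter_subset_right) fun _ h => h.1).comp
      (Φ.contMDiffOn_invFun.mono inter_subset_left) fun _ h => ⟨Φ.map_target h.1, h.2⟩
    refine h2.congr fun y hy => ?_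
    simp only [comp, tangentMapWithin]
    rw [mfderivWithin_of_isOpen (x := Φ.invFun y) Φ.open_source (Φ.map_target hy.1)]
    exact congrArg (fun x => (⟨x, mfderiv I J e (Φ.invFun y) (W (Φ.invFun y))⟩ : TangentBundle J N))
      (h4 y hy.1).symm

end

/-- the chart of the exterior in the zero filling -/
def iz (t : Tube) (p : E3) : Yz t := ex (t.ie σ0) (t.it σ0 (1, 0)) (sg t p)

variable {t : Tube} {r : ℝ} {p q : E3}

theorem isOpen_Out (t : Tube) (r : ℝ) : IsOpen (Out t r) :=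
  (isClosed_ctube t r).isOpen_compl.preimage (isOpenEmbedding_sg t).continuous

theorem Out_mono {s : ℝ} (h : s ≤ r) : Out t r ⊆ Out t s := fun _ hp k =>
  hp (image_mono (fun _ (a : _ ≤ s) => a.trans h) k)

theorem sg_mem (hr : 0 ≤ r) (h : p ∈ Out t r) : sg t p ∈ t.Ext := by
  rintro ⟨z, hz, e⟩
  exact h ⟨z, by rw [mem_ofPred_eq, show z.2 = 0 from hz.2]; simpa using hr, e⟩

theorem iz_eq (h : sg t p ∈ t.Ext) : iz t p = t.ie σ0 ⟨_, h⟩ := ex_mem _ _ h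

theorem ld_iz (h : sg t p ∈ t.Ext) : IsLocalDiffeomorphAt (𝓡 3) (𝓡 3) ∞ (iz t) p :=
  (ld_sg t p).comp _ _ (ld_ex h ((t.two σ0).ld_inl _))

theorem iz_inj (h : sg t p ∈ t.Ext) (h' : sg t q ∈ t.Ext) (e : iz t p = iz t q) : p = q := by
  rw [iz_eq h, iz_eq h'] at e
  exact sg_injective t (congrArg Subtype.val ((t.two σ0).inl_injective e))

theorem tb_mem {z : Circle × ℂ} (h : z.2 ≠ 0) : tb t z ∈ Out t r ↔ r < ‖z.2‖ := by
  rw [Out, mem_ofPred_eq, sg_tb h, τ_mem_ctube, not_le]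

theorem iz_tb {a : Circle × ℂ} (h : a.2 ≠ 0) : iz t (tb t (mon 1 0 0 1 a)) = t.it σ0 a := by
  have h1 := mon_ne 1 0 0 1 h
  rw [iz_eq (by rw [sg_tb h1]; exact t.τ_mem_Ext.2 h1), ie_eq_it0]
  exact ⟨h, (sg_tb h1).symm⟩

theorem iz_eq_it (h : sg t p ∈ t.Ext) {a : Circle × ℂ} (e : iz t p = t.it σ0 a) :
    a.2 ≠ 0 ∧ tb t (mon 1 0 0 1 a) = p := by
  rw [iz_eq h, ie_eq_it0] at e
  exact ⟨e.1, tb_of_sg e.2.symm⟩

theorem cover (hr : 0 ≤ r) (y : Yz t) :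
    (∃ p ∈ Out t r, iz t p = y) ∨ ∃ a : Circle × ℂ, ‖a.2‖ ≤ r ∧ t.it σ0 a = y := by
  have k : ∀ a : Circle × ℂ, (∃ p ∈ Out t r, iz t p = t.it σ0 a) ∨
      ∃ b : Circle × ℂ, ‖b.2‖ ≤ r ∧ t.it σ0 b = t.it σ0 a := fun a => by
    rcases le_or_gt ‖a.2‖ r with h | h
    · exact .inr ⟨a, h, rfl⟩
    · have h0 := norm_pos_iff.1 (hr.trans_lt h)
      exact .inl ⟨_, (tb_mem (mon_ne _ _ _ _ h0)).2 (by rwa [norm_mon]), iz_tb h0⟩
  refine (t.two σ0).ind (fun x => ?_) k y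
  by_cases h : x.1 ∈ range t.τ
  · obtain ⟨z, e⟩ := h
    have := t.ie_τE' σ0 ⟨z, t.τ_mem_Ext.1 (e ▸ x.2)⟩
    rw [show t.τE ⟨z, t.τ_mem_Ext.1 (e ▸ x.2)⟩ = x from Subtype.ext e] at this
    rw [show (t.two σ0).inl x = _ from this]
    exact k _
  · obtain ⟨p, e⟩ : x.1 ∈ range (sg t) := by
      rw [range_sg]; exact fun e => h ⟨_, e.symm⟩
    refine .inl ⟨p, fun c => h (e ▸ image_subset_range _ _ c), ?_⟩
    rw [iz_eq (e ▸ x.2)]
    exact congrArg _ (Subtype.ext e)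

/-- the box of the extended angle -/
theorem exists_box (hB : BoxStmt) {k : KD} {V : E3 → E3} {ψ : E3 → ℝ} {M : Set E3}
    (h : SS k r V ψ M) : ∃ (R : CM 2) (oR : Fm 2 R) (b : R × ℝ → Yz k.toTube)
      (Φ : Yz k.toTube → Circle) (u : Circle), Ori (𝓡 2) oR ∧ Box b ∧ Continuous Φ ∧ range b = {y | Φ y ≠ 1} ∧
      (∀ p, Φ (b p) = cay p.2) ∧ (∀ p ∈ Out k.toTube (r / 4), Φ (iz k.toTube p) = An k ψ p) ∧
      ∀ a : Circle × ℂ, ‖a.2‖ < r → Φ (k.it σ0 a) = a.1 * u := by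
  classical
  obtain ⟨c, hc⟩ := h.std
  have r0 := h.pos
  have r4 : 0 ≤ r / 4 := by positivity
  have oO : IsOpen {a : Circle × ℂ | ‖a.2‖ < r} := isOpen_lt continuous_snd.norm continuous_const
  let l : Yz k.toTube → ℝ := fun y => if y ∈ k.it σ0 '' {a | ‖a.2‖ < r} then c else
    ψ (invFunOn (iz k.toTube) (Out k.toTube (r / 4)) y)
  have l1 : ∀ a : Circle × ℂ, ‖a.2‖ < r → l (k.it σ0 a) = c := fun a ha => if_pos ⟨a, ha, rfl⟩
  have l2 : ∀ p ∈ Out k.toTube (r / 4), l (iz k.toTube p) = ψ p := fun p hp => by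
    simp only [l]
    split_ifs with k1
    · obtain ⟨a, ha, e⟩ := k1
      obtain ⟨a0, rfl⟩ := iz_eq_it (sg_mem r4 hp) e.symm
      exact (hc _ ((tb_mem (mon_ne _ _ _ _ a0)).1 hp) (by rw [norm_mon]; exact le_of_lt ha)).1.symm
    · rw [InjOn.leftInvOn_invFunOn (fun p a q b => iz_inj (sg_mem r4 a) (sg_mem r4 b)) hp]
  have l3 : ContMDiff (𝓡 3) 𝓘(ℝ, ℝ) ∞ l := fun y => by
    rcases cover r4 y with ⟨p, hp, rfl⟩ | ⟨a, ha, rfl⟩
    · have o := (isOpen_Out _ _).mem_nhds hp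
      exact contMDiffAt_of_comp (ld_iz (sg_mem r4 hp)) ((h.smψ.contDiffAt o).contMDiffAt.congr_of_eventuallyEq
        (mem_of_superset o fun q hq => l2 q hq))
    · exact contMDiffAt_of_comp ((k.two σ0).ld_inr a) (contMDiffAt_const.congr_of_eventuallyEq
        (mem_of_superset (oO.mem_nhds (show ‖a.2‖ < r by linarith)) fun b hb => l1 b hb))
  let Φ : Yz k.toTube → Circle := fun y => phi0 k y * Circle.exp (l y)
  have Φ0 : SC Φ := (contMDiff_phi0 k).mul (contMDiff_circleExp.comp l3)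
  have Φ1 : ∀ p ∈ Out k.toTube (r / 4), Φ (iz k.toTube p) = An k ψ p := fun p hp => by
    simp only [Φ]
    rw [l2 p hp, iz_eq (sg_mem r4 hp), phi0_ie, An, th_eq]
  have Φ2 : ∀ a : Circle × ℂ, ‖a.2‖ < r → Φ (k.it σ0 a) = a.1 * Circle.exp c := fun a ha => by
    simp only [Φ]
    rw [l1 a ha, phi0_it]
  obtain ⟨v, hv⟩ := exists_contMDiffSection_forall_mem_convex_of_local (n := ⊤) (𝓡 3) (F_fiber := E3)
    (TangentSpace (𝓡 3) : Yz k.toTube → Type) (fun y => {w | Φ y ≠ 1 → 0 < dl (𝓡 3) Φ y w})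
    (fun y a ha b hb s t hs ht e k => (convex_Ioi (0 : ℝ)).linear_preimage (dl (𝓡 3) Φ y)
      (ha k) (hb k) hs ht e) fun y => by
      rcases cover r4 y with ⟨p, hp, rfl⟩ | ⟨a, ha, rfl⟩
      · obtain ⟨O, o1, W, o2, o3⟩ := loc_push (ld_iz (sg_mem r4 hp)) (isOpen_Out _ _) hp (W := V)
          (contMDiffOn_vectorSpace_iff_contDiffOn.2 h.smV)
        refine ⟨O, o1, W, o2, fun y hy k1 => ?_⟩
        obtain ⟨q, hq, rfl, e⟩ := o3 y hy
        have := h.ps q hq fun m => k1 ((Φ1 q hq).trans (h.one q m))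
        rw [← dl_congr (g := Φ ∘ iz k.toTube) (mem_of_superset ((isOpen_Out _ _).mem_nhds hq) Φ1),
          dl_comp (Φ0 _) ((ld_iz (sg_mem r4 hq)).mdifferentiableAt (by simp))] at this
        exact this.trans_eq (congrArg (dl (𝓡 3) Φ _) e.symm)
      · obtain ⟨s, hs⟩ := Circle.exp_surjective a.1
        have f1 : IsLocalDiffeomorph (𝓘(ℝ, ℝ).prod 𝓘(ℝ, ℂ)) (𝓡 3) ∞
            (k.it σ0 ∘ Prod.map Circle.exp id) :=
          ld_comp (k.two σ0).ld_inr (ld_prodMap ld_circleExp ld_id)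
        have h1 : SmV (𝓘(ℝ, ℝ).prod 𝓘(ℝ, ℂ)) fun p : ℝ × ℂ =>
            (((1 : ℝ), 0) : TangentSpace (𝓘(ℝ, ℝ).prod 𝓘(ℝ, ℂ)) p) :=
          SmV.prod (a := fun _ => (1 : ℝ)) (b := fun _ => 0)
            ((Flo26.smV_model.2 contDiff_const : SmV 𝓘(ℝ, ℝ) fun _ : ℝ => (1 : ℝ)).comp contMDiff_fst)
            ((SmV.zero (I := 𝓘(ℝ, ℂ))).comp contMDiff_snd)
        have o0 : IsOpen {a : ℝ × ℂ | ‖a.2‖ < r} := isOpen_lt continuous_snd.norm continuous_const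
        obtain ⟨O, o1, W, o2, o3⟩ := loc_push (f1 (s, a.2)) o0 (show ‖a.2‖ < r by linarith)
          h1.contMDiffOn
        refine ⟨O, by simpa [hs] using o1, W, o2, fun y hy _ => ?_⟩
        obtain ⟨q, hq, rfl, e⟩ := o3 y hy
        have e1 := dl_comp (Φ0 _) ((f1 q).mdifferentiableAt (by simp)) ((1 : ℝ), (0 : ℂ))
        rw [dl_congr (g := Φ ∘ k.it σ0 ∘ Prod.map Circle.exp id)
          (h := fun p : ℝ × ℂ => Circle.exp (p.1 + c)) (mem_of_superset (o0.mem_nhds hq)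
          fun p hp => (Φ2 (Circle.exp p.1, p.2) hp).trans (Circle.exp_add _ _).symm), dl_exp
          (f := fun p : ℝ × ℂ => p.1 + c) (contMDiffAt_fst.add contMDiffAt_const)] at e1
        refine LT.lt.trans_eq ?_ (e1.trans (congrArg (dl (𝓡 3) Φ _) e.symm))
        have := congrArg (fun L : ℝ × ℂ →L[ℝ] ℝ => L (1, 0))
          ((hasMFDerivAt_fst (I := 𝓘(ℝ, ℝ)) (I' := 𝓘(ℝ, ℂ)) q).add (hasMFDerivAt_const c q)).mfderiv
        exact one_pos.trans_eq (Eq.trans (add_zero (1 : ℝ)).symm this.symm)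
  obtain ⟨R, oR, b, hb⟩ := hB (Yz k.toTube) _ v Φ (Orx52.ori_oF k.toTube σ0) v.contMDiff Φ0 hv
  exact ⟨R, oR, b, Φ, _, hb.ori, hb.box, Φ0.continuous, hb.rg, hb.ang, Φ1, Φ2⟩

end Crest.Agent.X212.Dic6
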