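import Crest.Agent.X212.Prf6.All
import Crest.Agent.X212.St29.Defs

/-!
# Row 212, level zero (helper6): PLAN
-/

set_option autoImplicit false
set_option linter.unusedSectionVars false
noncomputable section
open Set Filter Topology Function Complex Metric
open scoped ContDiff Manifold

namespace Crest.Agent.X212.Dic6
open Prf6 Lad50.Si
open Hel40 (Lifts)

/-- an arc has a non-separating dual (after `Lad50.Si.step`) -/
theorem exists_ns (X : Sf) (hM : IsPreconnected (univ : Set X.R)) {Z : Set X.R} {B : ℂ → X.R}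
    {η : X.R → ℝ} (h : Arc X.o Z B η) : ∃ A, An X.o A ∧ NS A := by
  have hB := h.st
  have e0 : Zᶜ \ core B = (Z ∪ core B)ᶜ := by rw [compl_union]; rfl
  have ho := h.cl'.isOpen_compl
  obtain ⟨γ, hγ, hγU, hγZ, k, hk, hγ0⟩ := Arx49.arcx X Zᶜ (core B) B h.cl.isOpen_compl (e0 ▸ ho)
    (e0 ▸ h.cc) (hB.1 0) (h.off 0) (Eventually.of_forall fun z => hB.mem_core)
  have hkI : (k : ℂ) * I ≠ 0 := mul_ne_zero (ofReal_ne_zero.2 hk.ne') I_ne_zero
  obtain ⟨A, hAn, hAU, hAγ, hA0⟩ := Tub3.tub X γ Zᶜ 1 (fun _ => 0) (fun _ z => B (0 + k * I * z)) hγ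
    h.cl.isOpen_compl hγU (fun _ _ _ _ => Subsingleton.elim _ _)
    (fun _ => (hB.affine hkI 0).1 0) (fun _ => hγ0.mono fun u hu => by
      rw [zero_add u, hu]; congr 1; ring)
  have hγ00 : γ 0 = B 0 := by simpa using hγ0.self_of_nhds
  obtain ⟨c1, y, hy⟩ := arc_conn h (l := atTop) (by rw [cocompact_eq_atBot_atTop]; exact le_sup_right)
    (Ioi_mem_atTop 0) isPreconnected_Ioi
  obtain ⟨c2, -⟩ := arc_conn h (l := atBot) (by rw [cocompact_eq_atBot_atTop]; exact le_sup_left)
    (Iio_mem_atBot 0) isPreconnected_Iio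
  have h1 : Tendsto (fun s : ℝ => (s : ℂ) * I) (𝓝 0) (𝓝 0) :=
    Continuous.tendsto' (by fun_prop) _ _ (by simp)
  obtain ⟨r, hr, hrr⟩ := Metric.eventually_nhds_iff.1 (h1.eventually (hA0 0))
  have h2 : ∀ s : ℝ, |s| < r → A (s * I) = B ((-(k * s) : ℝ)) := fun s hs => by
    have := hrr (y := s) (by simpa using hs)
    rw [ofReal_zero, zero_add] at this
    rw [this]
    congr 1
    push_cast
    linear_combination k * s * I_sq
  have h3 : ∀ t : ℝ, t ≠ 0 → B t ∉ core A := by
    rintro t ht ⟨s, hs⟩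
    simp only [hAγ] at hs
    obtain ⟨n, rfl⟩ := hγZ s (hs ▸ ⟨t, rfl⟩)
    have h4 := hγ.per 0 n
    rw [zero_add, hs, hγ00] at h4
    exact ht (ofReal_eq_zero.1 (hB.2 h4))
  refine ⟨A, hAn, ns_of_join hM hAn (c1.union y (.inl hy) (.inl hy) c2) ?_ (z := (r / 2 : ℝ) * I)
    (w := (-(r / 2) : ℝ) * I) (by simpa using hr) (by simpa using hr) ?_ ?_⟩
  · rintro p ((hp | ⟨t, ht, rfl⟩) | hp | ⟨t, ht, rfl⟩)
    · exact fun hq => hAU (core_subset A hq) hp
    · exact h3 t (ne_of_gt ht)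
    · exact fun hq => hAU (core_subset A hq) hp
    · exact h3 t (ne_of_lt ht)
  · rw [h2 _ (by rw [abs_of_pos] <;> linarith)]
    exact .inr (.inr ⟨_, by simp only [mem_Iio]; nlinarith, rfl⟩)
  · rw [h2 _ (by rw [abs_neg, abs_of_pos] <;> linarith)]
    exact .inl (.inr ⟨_, by simp only [mem_Ioi]; nlinarith, rfl⟩)

section
variable {M : Type*} [TopologicalSpace M] [ChartedSpace ℂ M] [IsManifold IC ∞ M] [T2Space M]
  {o : Or M} {A : ℂ → M}

/-- functions of the height of an annulus chart -/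
theorem exists_ht (hA : An o A) {T : Type*} [TopologicalSpace T] {g : ℝ → T} {c : T}
    (hg : ∀ r ∉ Icc (0 : ℝ) 1, g r = c) : ∃ f : M → T, (∀ z, f (A z) = g z.im) ∧
      (∀ x ∉ range A, f x = c) ∧ ∀ x, (∀ z, A z = x → ContinuousAt g z.im) → ContinuousAt f x := by
  classical
  let f : M → T := fun x => if h : ∃ z, A z = x then g h.choose.im else c
  have h1 : ∀ z, f (A z) = g z.im := fun z => by
    have h : ∃ w, A w = A z := ⟨z, rfl⟩
    simp only [f, dif_pos h, hA.im_eq h.choose_spec]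
  have h2 : ∀ x ∉ range A, f x = c := fun x hx => dif_neg hx
  refine ⟨f, h1, h2, fun x hx => ?_⟩
  by_cases hr : x ∈ range A
  · obtain ⟨z, rfl⟩ := hr
    rw [ContinuousAt, ← (hA.1 z).map_nhds, tendsto_map'_iff]
    exact ((hx z rfl).comp continuous_im.continuousAt).congr (f := g ∘ im)
      (Eventually.of_forall fun w => (h1 w).symm)
  · refine (continuousAt_const (y := c)).congr ?_
    filter_upwards [((isCompact_bx 0 1).image (cont_of_pm hA.1)).isClosed.isOpen_compl.mem_nhds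
      fun h => hr (image_subset_range _ _ h)] with y hy
    by_cases hy' : y ∈ range A
    · obtain ⟨z, rfl⟩ := hy'
      rw [h1, hg _ fun h => hy (hA.mem_bx.2 h)]
    · exact (h2 y hy').symm

/-- the step across a non-separating annulus is essential -/
theorem exists_ess (hA : An o A) (hn : NS A) : ∃ w : M → Circle, Continuous w ∧ ¬ Lifts w univ := by
  set σ := Real.smoothTransition
  have hσ : Continuous σ := Real.smoothTransition.continuous
  have s0 : ∀ r ≤ (0 : ℝ), σ r = 0 := fun r => Real.smoothTransition.zero_of_nonpos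
  have s1 : ∀ r ≥ (1 : ℝ), σ r = 1 := fun r => Real.smoothTransition.one_of_one_le
  obtain ⟨w, w1, w2, w3⟩ := exists_ht hA (g := fun r => Circle.exp (2 * Real.pi * σ r)) (c := 1)
    fun r hr => by
      obtain ⟨n, hn⟩ := st_int hr
      rw [show σ r = n from hn, mul_comm, Circle.exp_int_mul_two_pi]
  obtain ⟨m, m1, m2, m3⟩ := exists_ht hA (g := fun r => if 0 < r then 2 * Real.pi * (σ r - 1) else 0)
    (c := (0 : ℝ)) fun r hr => by
      split_ifs with h
      · rw [s1 r (not_le.1 fun k => hr ⟨h.le, k⟩).le]; simp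
      · rfl
  refine ⟨w, continuous_iff_continuousAt.2 fun x => w3 x fun z _ => by fun_prop, fun ⟨l, l1, l2⟩ => ?_⟩
  have l0 := continuousOn_univ.1 l1
  have a : l (A (2 * I)) - m (A (2 * I)) = l (A (-I)) - m (A (-I)) := by
    have e : ∀ x, Circle.exp (l x - m x) = 1 := fun x => by
      rw [Circle.exp_sub, ← l2 x trivial, div_eq_one]
      by_cases hx : x ∈ range A
      · obtain ⟨z, rfl⟩ := hx
        rw [w1, m1]
        split_ifs with h
        · rw [mul_sub, Circle.exp_sub]; simp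
        · rw [s0 _ (not_lt.1 h), mul_zero]
      · simp [w2 x hx, m2 x hx]
    refine Circle.isCoveringMap_exp.constOn_of_comp hn (l0.continuousOn.sub fun x hx =>
      (m3 x fun z e => ?_).continuousWithinAt) (fun x _ y _ => (e x).trans (e y).symm)
      (by simp [hA.mem_core]) (by simp [hA.mem_core])
    rcases lt_or_gt_of_ne (show z.im ≠ 0 from fun k => hx (e ▸ hA.mem_core.2 k)) with k | k
    · exact continuousAt_const.congr ((gt_mem_nhds k).mono fun r hr => (if_neg (not_lt.2 hr.le)).symm)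
    · exact (by fun_prop : ContinuousAt (fun r => 2 * Real.pi * (σ r - 1)) z.im).congr
        ((lt_mem_nhds k).mono fun r hr => (if_pos hr).symm)
  have b := Circle.isCoveringMap_exp.const_of_comp (g := fun s : ℝ => l (A (s * I)) - 2 * Real.pi * σ s)
    ((l0.comp ((cont_of_pm hA.1).comp (by fun_prop))).sub (by fun_prop)) (fun s t => by
      simp [Circle.exp_sub, ← l2 _ trivial, w1]) 2 (-1)
  rw [m1, m1] at a
  simp [s1 2 (by norm_num), s0 (-1) (by norm_num)] at a b
  rw [if_neg (by norm_num)] at a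
  linarith [Real.pi_pos]

end

theorem plan : St29.PlanStmt := by
  intro X hX
  by_cases h : ∃ A, An X.o A ∧ NS A
  · obtain ⟨A, a, b⟩ := h
    exact .inl (exists_ess a b)
  refine .inr fun x L hL hx => ?_
  obtain ⟨c⟩ := graph0 X hX x
  have m0 : c.m = 0 := by
    by_contra k
    exact h (exists_ns X hX (c.arc 0 (Nat.pos_of_ne_zero k)))
  obtain ⟨φ, a1, -, a2⟩ := c.root _ (hL.isClosed.isOpen_compl.mem_nhds hx)
  obtain ⟨D, d1, -, d2⟩ := c.face
  obtain ⟨ψ, b1, -, b2⟩ := d2 _ (hL.image (G_cont_inv (a1.mem 1))) (by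
    rintro _ ⟨y, hy, rfl⟩ k
    rw [m0] at k
    exact a2 ⟨_, k, rfl⟩ (by simpa using hy))
  refine ⟨_, (d1.comp (inv_mem (b1.mem 1))).comp (a1.mem 1), fun y hy => ?_⟩
  obtain ⟨z, hz⟩ := b2 ⟨_, ⟨y, hy, rfl⟩, rfl⟩
  exact ⟨z, by simp [hz]⟩

end Crest.Agent.X212.Dic6
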