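import Crest.Agent.X212.Dic6.Cap
import Crest.Agent.X212.Dic6.Plan
import Crest.Agent.X212.Orx52.Orb

/-!
# Row 212, level zero (helper6): DIC, genus certificate or unknot
-/

set_option autoImplicit false
set_option linter.unusedSectionVars false

open Set Filter Topology Function Metric
open scoped ContDiff Manifold
open Crest.GeometryTopology.DehnSurgery Crest.Agent.X212.Glue52 Crest.Agent.X212.Ext52
open Crest.Agent.X212.Sm10 Crest.Agent.X212.Hel40 Crest.Agent.X212.Cab39 Crest.Agent.X212.St29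
open Crest.Agent.X212.Sep15 (CM Box)

noncomputable section

namespace Crest.Agent.X212.Dic6

/-- shrinking `ℂ × ℝ` to a thin neighbourhood of the unit disc -/
theorem exists_shrink {N : Set (ℂ × ℝ)} (hN : IsOpen N) (h : closedBall 0 1 ×ˢ {0} ⊆ N) :
    ∃ κ : ℂ × ℝ → ℂ × ℝ, IsOpenEmbedding κ ∧ range κ ⊆ N ∧ ∀ z ∈ sphere (0 : ℂ) 1, κ (z, 0) = (z, 0) := by
  obtain ⟨e, e0, he⟩ := ((isCompact_closedBall (0 : ℂ) 1).prod
    (isCompact_singleton (x := (0 : ℝ)))).exists_thickening_subset_open hN h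
  have u : ∀ (E : Type) [NormedAddCommGroup E] [NormedSpace ℝ E] (a b : ℝ), a ≠ 0 → b ≠ 0 →
      IsOpenEmbedding fun x : E => a • OpenPartialHomeomorph.univUnitBall (b • x) :=
    fun E _ _ a b ha hb => ((Homeomorph.smulOfNeZero a ha).isOpenEmbedding.comp
      (OpenPartialHomeomorph.univUnitBall.isOpenEmbedding rfl)).comp
        (Homeomorph.smulOfNeZero b hb).isOpenEmbedding
  have n : ∀ (E : Type) [NormedAddCommGroup E] [NormedSpace ℝ E] (a : ℝ) (x : E), 0 < a →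
      ‖a • OpenPartialHomeomorph.univUnitBall x‖ < a := fun E _ _ a x ha => by
    rw [norm_smul, Real.norm_of_nonneg ha.le]
    exact mul_lt_of_lt_one_right ha (mem_ball_zero_iff.1
      (OpenPartialHomeomorph.univUnitBall.map_source (mem_univ x)))
  have s0 : 0 < √((1 + e) ^ 2 - 1) := Real.sqrt_pos.2 (by nlinarith)
  refine ⟨_, (u ℂ (1 + e) (√((1 + e) ^ 2 - 1))⁻¹ (by positivity) (by positivity)).prodMap
    (u ℝ e 1 e0.ne' one_ne_zero), ?_, fun z hz => Prod.ext ?_ (by simp)⟩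
  · rintro _ ⟨p, rfl⟩
    have a := n ℂ (1 + e) ((√((1 + e) ^ 2 - 1))⁻¹ • p.1) (by positivity)
    rw [← mem_ball_zero_iff, add_comm 1 e, ← thickening_closedBall e0 zero_le_one] at a
    obtain ⟨w, w1, w2⟩ := mem_thickening_iff.1 a
    refine he (mem_thickening_iff.2 ⟨(w, 0), ⟨w1, rfl⟩, max_lt (by rwa [add_comm 1 e]) ?_⟩)
    simpa using n ℝ e ((1 : ℝ) • p.2) e0
  · have h1 : (√((1 + e) ^ 2 - 1)) ^ 2 = (1 + e) ^ 2 - 1 := Real.sq_sqrt (by nlinarith)
    set s := √((1 + e) ^ 2 - 1)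
    have h2 : √(1 + s⁻¹ ^ 2) = (1 + e) / s := by
      rw [show 1 + s⁻¹ ^ 2 = ((1 + e) / s) ^ 2 by field_simp; linarith, Real.sqrt_sq (by positivity)]
    simp only [Prod.map, OpenPartialHomeomorph.univUnitBall_apply, norm_smul,
      mem_sphere_zero_iff_norm.1 hz, mul_one, norm_inv, Real.norm_of_nonneg s0.le, h2, smul_smul]
    rw [show (1 + e) * (((1 + e) / s)⁻¹ * s⁻¹) = 1 by field_simp, one_smul]

variable {t : Tube} {r : ℝ} {R : CM 2} [Nonempty R] {b : R × ℝ → Yz t} {Φ : Yz t → Circle}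
  {u : Circle}

theorem Bx.ld (h : Bx t r b Φ u) {ζ : ℂ} (a : ‖ζ‖ < r) :
    IsLocalDiffeomorphAt 𝓘(ℝ, ℂ) (𝓡 2) ∞ (ep b u) ζ := by
  have hi := leftInverse_invFun (t.two σ0).inr_injective
  have k : ∀ y ∈ ball (0 : ℂ) r, (invFun (t.it σ0) (b (ep b u y, 0))).2 = y := fun y c => by
    rw [h.e1 (mem_ball_zero_iff.1 c), hi]
  refine ld_of_inverse (g := fun x => (invFun (t.it σ0) (b (x, 0))).2) isOpen_ball (h.eo le_rfl)
    (mem_ball_zero_iff.2 a) (fun z c => (h.es (mem_ball_zero_iff.1 c)).contMDiffWithinAt) ?_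
    (mapsTo_image _ _) ?_ k ?_ <;> rintro _ ⟨y, c, rfl⟩
  · have := contMDiffAt_of_comp (g := invFun (t.it σ0)) ((t.two σ0).ld_inr (u, y))
      (contMDiffAt_id.congr_of_eventuallyEq (.of_forall hi))
    rw [show (t.two σ0).inr (u, y) = _ from (h.e1 (mem_ball_zero_iff.1 c)).symm] at this
    exact (this.comp (ep b u y) (h.bs _)).snd.contMDiffWithinAt
  · exact mem_of_eq_of_mem (k y c) c
  · exact congrArg _ (k y c)

/-- the planar case -/
theorem Bx.unk (hS : SchStmt) (hU : UnkStmt) (h : Bx t r b Φ u) {D : ℂ → R}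
    (hD : IsLocalDiffeomorph 𝓘(ℝ, ℂ) (𝓡 2) ∞ D) (hi : Injective D)
    (hL : (ep b u '' ball 0 (r / 4))ᶜ ⊆ range D) : t.thick.IsUnknot := by
  have r0 := h.pos
  have r3 := half_pos r0
  have n : ∀ z : ℂ, ‖(r / 2 : ℝ) • z‖ = r / 2 * ‖z‖ := fun z => by
    rw [norm_smul, Real.norm_of_nonneg h.r2]
  have lt : ∀ z : ℂ, ‖z‖ < 2 → ‖(r / 2 : ℝ) • z‖ < r := fun z c => by rw [n]; nlinarith
  have m : ∀ z : ℂ, 1 / 2 < ‖z‖ → ‖z‖ < 2 →
      D (invFun D (ep b u ((r / 2 : ℝ) • z))) = ep b u ((r / 2 : ℝ) • z) := fun z a c =>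
    invFun_eq (hL fun ⟨w, w1, w2⟩ => by
      have := h.ei (ball_subset_ball (by linarith) w1) (mem_ball_zero_iff.2 (lt z c)) w2
      rw [this, mem_ball_zero_iff, n] at w1
      nlinarith)
  obtain ⟨g, g1, g2⟩ := hS (fun z => invFun D (ep b u ((r / 2 : ℝ) • z))) (1 / 2) 2 (by norm_num)
    (by norm_num) (by norm_num) (fun z a w c e => smul_right_injective ℂ r3.ne' (h.ei
      (mem_ball_zero_iff.2 (lt z a.2)) (mem_ball_zero_iff.2 (lt w c.2))
      ((m z a.1 a.2).symm.trans ((congrArg D e).trans (m w c.1 c.2))))) fun z a c => by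
      have a1 : IsLocalDiffeomorphAt 𝓘(ℝ, ℂ) 𝓘(ℝ, ℂ) ∞ (fun z : ℂ => (r / 2 : ℝ) • z) z :=
        ld_of_inverse (g := fun z : ℂ => (r / 2 : ℝ)⁻¹ • z) isOpen_univ isOpen_univ trivial
          (contMDiffOn_iff_contDiffOn.2 (by fun_prop)) (contMDiffOn_iff_contDiffOn.2 (by fun_prop))
          (mapsTo_univ _ _) (mapsTo_univ _ _) (fun y _ => inv_smul_smul₀ r3.ne' y)
          fun y _ => smul_inv_smul₀ r3.ne' y
      have a2 := ld_of_comp (g := invFun D) (hD (invFun D (ep b u ((r / 2 : ℝ) • z))))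
        (ld_congr (ld_id _) (.of_forall (leftInverse_invFun hi)))
      rw [m z a c] at a2
      exact (a1.comp _ _ (h.ld (lt z c))).comp _ _ a2
  have E1 : IsOpenEmbedding (D ∘ g) := (ld_isOpenEmbedding hD hi).comp g1
  have E2 : (D ∘ g) '' sphere 0 1 = (fun z => ep b u ((r / 2 : ℝ) • z)) '' sphere 0 1 := by
    rw [image_comp, g2, image_image]
    exact image_congr fun z a => m z (by rw [mem_sphere_zero_iff_norm.1 a]; norm_num)
      (by rw [mem_sphere_zero_iff_norm.1 a]; norm_num)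
  have E3 : ∀ w ∈ ball (0 : ℂ) (r / 2), ∀ z ∈ closedBall (0 : ℂ) 1, (D ∘ g) z = ep b u w →
      z ∈ ball (0 : ℂ) 1 := fun w a z c e => by
    by_contra d
    obtain ⟨y, y1, y2⟩ : (D ∘ g) z ∈ _ := E2.le (mem_image_of_mem _
      (le_antisymm c (not_lt.1 d) : z ∈ sphere 0 1))
    have y3 := mem_sphere_zero_iff_norm.1 y1
    rw [← h.ei (mem_ball_zero_iff.2 (lt y (by rw [y3]; norm_num))) (ball_subset_ball (by linarith) a)
      (y2.trans e), mem_ball_zero_iff, n, y3] at a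
    linarith
  have E4 : ep b u 0 ∉ (D ∘ g) '' closedBall 0 1 := fun ⟨z, c, e⟩ => by
    have k := ((convex_ball 0 (r / 2)).isPreconnected.image _ ((h.ec (half_lt_self r0)).mono
      ball_subset_closedBall)).subset_left_of_subset_union (E1.isOpenMap _ isOpen_ball)
      ((isCompact_closedBall 0 1).image E1.continuous).isClosed.isOpen_compl
      (disjoint_compl_right.mono_left (image_mono ball_subset_closedBall)) (by
        rintro _ ⟨w, a, rfl⟩
        by_cases d : ep b u w ∈ (D ∘ g) '' closedBall 0 1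
        · obtain ⟨y, y1, y2⟩ := d
          exact .inl ⟨y, E3 w a y y1 y2, y2⟩
        · exact .inr d) ⟨_, mem_image_of_mem _ (mem_ball_self r3),
          e ▸ mem_image_of_mem _ (E3 0 (mem_ball_self r3) z c e)⟩
    refine noncompact_univ ℂ (((ld_isOpenEmbedding hD hi).isInducing.isCompact_preimage_iff
      (K := univ) fun x _ => ?_).2 isCompact_univ)
    by_cases d : x ∈ ep b u '' ball 0 (r / 4)
    · obtain ⟨y, -, y2⟩ := k (image_mono (ball_subset_ball (by linarith)) d)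
      exact ⟨_, y2⟩
    · exact hL d
  have B : IsOpenEmbedding (b ∘ Prod.map (D ∘ g) id) :=
    h.box.isOpenEmbedding.comp (E1.prodMap .id)
  have I := (t.two σ0).isOpenEmbedding_inl
  obtain ⟨κ, κ1, κ2, κ3⟩ := exists_shrink (I.isOpen_range.preimage B.continuous) (by
    rintro ⟨z, _⟩ ⟨c, rfl⟩
    refine ((t.two σ0).surj _).elim id fun ⟨a, e⟩ => ?_
    rw [mem_preimage, ← e]
    refine (t.mem_range_ie σ0).2 fun a0 => E4 ⟨z, c, ?_⟩
    rw [← a0]
    exact (h.e2 (by rwa [a0, norm_zero]) e).2.symm)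
  have : Nonempty t.Ext := ⟨⟨_, (t.τ_mem_Ext (z := (1, 1))).2 one_ne_zero⟩⟩
  have j : t.ie σ0 ∘ invFun (t.ie σ0) ∘ (b ∘ Prod.map (D ∘ g) id) ∘ κ =
      (b ∘ Prod.map (D ∘ g) id) ∘ κ := funext fun p => invFun_eq (κ2 ⟨p, rfl⟩)
  have c : ∀ y : Circle, ‖(r / 2 : ℝ) • (y : ℂ)‖ = r / 2 := fun y => by rw [n, Circle.norm_coe, mul_one]
  have d : ∀ (y : Circle) (z : ℂ), z ∈ sphere (0 : ℂ) 1 → (D ∘ g) z = ep b u ((r / 2 : ℝ) • (y : ℂ)) →
      ((invFun (t.ie σ0) (b (Prod.map (D ∘ g) id (κ (z, 0)))) : t.Ext) : S3) =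
        t.τ (y, (r / 2 : ℝ) * u) := fun y z a e => by
    have := congrFun j (z, 0)
    simp only [comp_apply] at this e ⊢
    rw [κ3 z a] at this ⊢
    simp only [Prod.map, comp_apply, id, e, h.e1 ((c y).trans_lt (half_lt_self r0))] at this ⊢
    rw [← ((ie_eq_it0 t).1 this).2, mon0, c, Complex.real_smul, dir_mul r3]
  refine hU t ((r / 2 : ℝ) * u) (Subtype.val ∘ invFun (t.ie σ0) ∘ (b ∘ Prod.map (D ∘ g) id) ∘ κ)
    (t.Ext.isOpen.isOpenEmbedding_subtypeVal.comp (.of_comp _ I (j.symm ▸ B.comp κ1 :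
      IsOpenEmbedding (t.ie σ0 ∘ _))))
    (Subset.antisymm ?_ ?_)
  · rintro _ ⟨⟨z, _⟩, ⟨a, rfl⟩, rfl⟩
    obtain ⟨y, y1, y2⟩ : (D ∘ g) z ∈ _ := E2.le (mem_image_of_mem _ a)
    exact ⟨(⟨y, y1⟩, _), ⟨trivial, rfl⟩, (d ⟨y, y1⟩ z a y2.symm).symm⟩
  · rintro _ ⟨⟨y, _⟩, ⟨-, rfl⟩, rfl⟩
    obtain ⟨z, z1, z2⟩ : _ ∈ (D ∘ g) '' sphere 0 1 := E2.ge (mem_image_of_mem _ y.2)
    exact ⟨(z, 0), ⟨z1, rfl⟩, d y z z1 z2⟩

theorem dic (hB : BoxStmt) (hS : SchStmt) (hU : UnkStmt) : DicStmt := by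
  intro k r V ψ M h hk
  obtain ⟨R, oR, b, Φ, u, hO, hb, Φ0, rg, ang, Φ1, Φ2⟩ := exists_box hB h
  have r0 := h.pos
  have h1 : Bx k.toTube r b Φ (-1 * u⁻¹) := ⟨r0, hb, Φ0, rg, ang, fun a c => by
    rw [Φ2 a c, eq_mul_inv_iff_mul_eq]⟩
  have e : SF k.toTube r Φ = Sei k r ψ := Set.ext fun p => and_congr_right fun a => by
    rw [Φ1 p (Out_mono (by linarith) a)]
  have : Nonempty R := by
    obtain ⟨p, -⟩ : k.it σ0 (-1 * u⁻¹, 0) ∈ range b := by
      rw [rg, mem_ofPred_eq, (h1.it _ (by simpa using r0)).2 rfl]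
      exact fun e => by have := congrArg (fun z : Circle => (z : ℂ).re) e; norm_num at this
    exact ⟨p.1⟩
  rcases plan (Orx52.sf hO) (h1.conn (e ▸ h.c1)) with ⟨w₀, w1, w2⟩ | hp
  · exact e ▸ h1.gc w1 w2
  · obtain ⟨D, D1, D2⟩ := hp (ep b (-1 * u⁻¹) 0) _ (h1.eo (ρ := r / 4)
      (by linarith)).isClosed_compl.isCompact fun a => a ⟨0, mem_ball_self (by positivity), rfl⟩
    exact (hk (h1.unk hS hU (fun z => ((Orx52.pm_C_iff hO).1 (D1.1 z)).1) D1.2 D2)).elim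

end Crest.Agent.X212.Dic6
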